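import Mathlib

set_option linter.all false

/-! The curve `y^2 = x^3 - 2x` over a field of characteristic zero, twisted base change. -/

namespace Vale.Agent.P027.R4.H849

open WeierstrassCurve

/-- the curve y^2 = x^3 - 2x over a field -/
def EF (F : Type) [Field F] : WeierstrassCurve.Affine F := ⟨0, 0, 0, -2, 0⟩

section general

variable {F : Type} [Field F] [CharZero F] [DecidableEq F]

lemma ef_equation_iff (x y : F) : (EF F).Equation x y ↔ y ^ 2 = x ^ 3 - 2 * x := by
  rw [WeierstrassCurve.Affine.equation_iff]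
  simp only [EF]
  constructor
  · intro h; linear_combination h
  · intro h; linear_combination h

lemma ef_nonsingular_iff (x y : F) : (EF F).Nonsingular x y ↔ y ^ 2 = x ^ 3 - 2 * x := by
  rw [WeierstrassCurve.Affine.nonsingular_iff, ef_equation_iff]
  simp only [EF]
  constructor
  · exact fun h => h.1
  · intro h
    refine ⟨h, ?_⟩
    by_contra hcon
    push Not at hcon
    obtain ⟨h1, h2⟩ := hcon
    have hy : y = 0 := by
      have h3 : 2 * y = 0 := by linear_combination h2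
      rcases mul_eq_zero.1 h3 with h4 | h4
      · exact absurd h4 two_ne_zero
      · exact h4
    have hx : 3 * x ^ 2 = 2 := by linear_combination -h1
    rw [hy] at h
    have h3 : x * (x ^ 2 - 2) = 0 := by linear_combination -h
    rcases mul_eq_zero.1 h3 with h4 | h4
    · rw [h4] at hx; norm_num at hx
    · have h5 : (4 : F) = 0 := by linear_combination hx - 3 * h4
      norm_num at h5

/-- the point with coordinates x, y -/
def pt (x y : F) (h : y ^ 2 = x ^ 3 - 2 * x) : (EF F).Point := .some x y ((ef_nonsingular_iff x y).2 h)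

/-- the point Q is affine with x-coordinate x -/
def HX (Q : (EF F).Point) (x : F) : Prop := ∃ y, ∃ h : y ^ 2 = x ^ 3 - 2 * x, Q = pt x y h

omit [CharZero F] [DecidableEq F] in
lemma negY_ef (x y : F) : (EF F).negY x y = -y := by
  simp [WeierstrassCurve.Affine.negY, EF]

lemma neg_pt (x y : F) (h : y ^ 2 = x ^ 3 - 2 * x) :
    -pt x y h = pt x (-y) (by rw [neg_sq]; exact h) := by
  unfold pt
  rw [WeierstrassCurve.Affine.Point.neg_some]
  congr 1
  exact negY_ef x y

lemma pt_congr {x y x' y' : F} {h : y ^ 2 = x ^ 3 - 2 * x} {h' : y' ^ 2 = x' ^ 3 - 2 * x'}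
    (hx : x = x') (hy : y = y') : pt x y h = pt x' y' h' := by
  subst hx; subst hy; rfl

lemma HX.neg {Q : (EF F).Point} {x : F} (h : HX Q x) : HX (-Q) x := by
  obtain ⟨y, hy, rfl⟩ := h
  exact ⟨-y, _, neg_pt x y hy⟩

lemma HX.eq_or_neg {Q Q' : (EF F).Point} {x : F} (h : HX Q x) (h' : HX Q' x) :
    Q = Q' ∨ Q = -Q' := by
  obtain ⟨y, hy, rfl⟩ := h
  obtain ⟨y', hy', rfl⟩ := h'
  have h2 : y ^ 2 = y' ^ 2 := by rw [hy, hy']
  rcases sq_eq_sq_iff_eq_or_eq_neg.1 h2 with h3 | h3
  · left; exact pt_congr rfl h3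
  · right; rw [neg_pt]; exact pt_congr rfl h3

lemma HX.unique {Q : (EF F).Point} {x x' : F} (h : HX Q x) (h' : HX Q x') : x = x' := by
  obtain ⟨y, hy, rfl⟩ := h
  obtain ⟨y', hy', h2⟩ := h'
  unfold pt at h2
  rw [WeierstrassCurve.Affine.Point.some.injEq] at h2
  exact h2.1

lemma HX.ne_zero {Q : (EF F).Point} {x : F} (h : HX Q x) : Q ≠ 0 := by
  obtain ⟨y, hy, rfl⟩ := h
  exact WeierstrassCurve.Affine.Point.some_ne_zero _

lemma not_HX_zero {x : F} (h : HX (0 : (EF F).Point) x) : False := h.ne_zero rfl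

lemma exists_HX {Q : (EF F).Point} (h : Q ≠ 0) : ∃ x, HX Q x := by
  rcases Q with _ | ⟨x, y, hxy⟩
  · exact absurd rfl h
  · exact ⟨x, y, (ef_nonsingular_iff x y).1 hxy, rfl⟩

/-- duplication formula -/
lemma HX_double {x y : F} (h : y ^ 2 = x ^ 3 - 2 * x) (hy : y ≠ 0) :
    HX (pt x y h + pt x y h) (((x ^ 2 + 2) / (2 * y)) ^ 2) := by
  have hne : y ≠ (EF F).negY x y := by
    rw [negY_ef]; intro h1; apply hy
    have h3 : 2 * y = 0 := by linear_combination h1
    rcases mul_eq_zero.1 h3 with h4 | h4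
    · exact absurd h4 two_ne_zero
    · exact h4
  have hadd := WeierstrassCurve.Affine.Point.add_self_of_Y_ne
    (h₁ := (ef_nonsingular_iff x y).2 h) hne
  have hslope : (EF F).slope x x y y = (3 * x ^ 2 - 2) / (2 * y) := by
    rw [WeierstrassCurve.Affine.slope_of_Y_ne rfl hne, negY_ef]
    simp only [EF]
    congr 1 <;> ring
  have hX : (EF F).addX x x ((EF F).slope x x y y) = ((x ^ 2 + 2) / (2 * y)) ^ 2 := by
    rw [hslope]
    simp only [WeierstrassCurve.Affine.addX, EF]
    rw [div_pow, div_pow]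
    have h4 : (2 * y) ^ 2 ≠ 0 := pow_ne_zero _ (mul_ne_zero two_ne_zero hy)
    field_simp
    linear_combination (-8 * x) * h
  have hP : pt x y h + pt x y h = .some _ _ (WeierstrassCurve.Affine.nonsingular_add
      ((ef_nonsingular_iff x y).2 h) ((ef_nonsingular_iff x y).2 h) fun hxy => hne hxy.right) := hadd
  rw [hP]
  refine ⟨(EF F).addY x x y ((EF F).slope x x y y), ?_, ?_⟩
  · rw [← hX, ← ef_nonsingular_iff]
    exact WeierstrassCurve.Affine.nonsingular_add
      ((ef_nonsingular_iff x y).2 h) ((ef_nonsingular_iff x y).2 h) fun hxy => hne hxy.right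
  · unfold pt
    rw [WeierstrassCurve.Affine.Point.some.injEq]
    exact ⟨hX, rfl⟩

/-- addition formula, different x-coordinates -/
lemma HX_add {x y x' y' : F} (h : y ^ 2 = x ^ 3 - 2 * x) (h' : y' ^ 2 = x' ^ 3 - 2 * x')
    (hne : x ≠ x') :
    HX (pt x y h + pt x' y' h') (((y - y') / (x - x')) ^ 2 - x - x') := by
  have hadd := WeierstrassCurve.Affine.Point.add_of_X_ne
    (h₁ := (ef_nonsingular_iff x y).2 h) (h₂ := (ef_nonsingular_iff x' y').2 h') hne
  have hX : (EF F).addX x x' ((EF F).slope x x' y y') = ((y - y') / (x - x')) ^ 2 - x - x' := by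
    rw [WeierstrassCurve.Affine.slope_of_X_ne hne]
    simp only [WeierstrassCurve.Affine.addX, EF]
    ring
  have hP : pt x y h + pt x' y' h' = .some _ _ (WeierstrassCurve.Affine.nonsingular_add
      ((ef_nonsingular_iff x y).2 h) ((ef_nonsingular_iff x' y').2 h')
      fun hxy => hne hxy.left) := hadd
  rw [hP]
  refine ⟨(EF F).addY x x' y ((EF F).slope x x' y y'), ?_, ?_⟩
  · rw [← hX, ← ef_nonsingular_iff]
    exact WeierstrassCurve.Affine.nonsingular_add
      ((ef_nonsingular_iff x y).2 h) ((ef_nonsingular_iff x' y').2 h') fun hxy => hne hxy.left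
  · unfold pt
    rw [WeierstrassCurve.Affine.Point.some.injEq]
    exact ⟨hX, rfl⟩

/-- coordinates of sum and difference -/
lemma HX_add_sub {V W : (EF F).Point} {a b : F} (hV : HX V a) (hW : HX W b) (hne : a ≠ b) :
    ∃ s d : F, HX (V + W) s ∧ HX (V - W) d ∧
      (s + d) * (a - b) ^ 2 = 2 * (a * b - 2) * (a + b) ∧
      s * d * (a - b) ^ 2 = (a * b + 2) ^ 2 := by
  obtain ⟨y, hy, rfl⟩ := hV
  obtain ⟨z, hz, rfl⟩ := hW
  have hab : a - b ≠ 0 := sub_ne_zero.2 hne
  refine ⟨((y - z) / (a - b)) ^ 2 - a - b, ((y - (-z)) / (a - b)) ^ 2 - a - b,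
    HX_add hy hz hne, ?_, ?_, ?_⟩
  · rw [sub_eq_add_neg, neg_pt]
    exact HX_add hy _ hne
  · field_simp
    linear_combination 2 * hy + 2 * hz
  · have h1 : ((y - z) / (a - b)) ^ 2 - a - b = ((y - z) ^ 2 - (a + b) * (a - b) ^ 2) / (a - b) ^ 2 := by
      field_simp; ring
    have h2 : ((y - (-z)) / (a - b)) ^ 2 - a - b =
        ((y + z) ^ 2 - (a + b) * (a - b) ^ 2) / (a - b) ^ 2 := by
      field_simp; ring
    rw [h1, h2, div_mul_div_comm, div_mul_eq_mul_div, div_eq_iff
      (mul_ne_zero (pow_ne_zero 2 hab) (pow_ne_zero 2 hab))]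
    linear_combination (a - b) ^ 2 * ((y ^ 2 - z ^ 2 + (a ^ 3 - 2 * a) - (b ^ 3 - 2 * b)) -
      2 * (a + b) * (a - b) ^ 2) * hy + (a - b) ^ 2 * (-(y ^ 2 - z ^ 2 + (a ^ 3 - 2 * a) -
      (b ^ 3 - 2 * b)) - 2 * (a + b) * (a - b) ^ 2) * hz

lemma HX_two_smul {V : (EF F).Point} {x : F} (hV : HX V x) (hx : x ^ 3 - 2 * x ≠ 0) :
    HX (V + V) ((x ^ 2 + 2) ^ 2 / (4 * (x ^ 3 - 2 * x))) := by
  obtain ⟨y, hy, rfl⟩ := hV
  have hy0 : y ≠ 0 := by
    rintro rfl
    apply hx; rw [← hy]; norm_num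
  have := HX_double hy hy0
  have e : ((x ^ 2 + 2) / (2 * y)) ^ 2 = (x ^ 2 + 2) ^ 2 / (4 * (x ^ 3 - 2 * x)) := by
    rw [div_pow, mul_pow, hy]; norm_num
  rw [← e]; exact this

end general

section twist

variable {F K : Type} [Field F] [CharZero F] [DecidableEq F] [Field K] [CharZero K] [DecidableEq K]

lemma tw_eq (f : F →+* K) {u : K} (hu : u ^ 4 = 1) {x y : F} (h : y ^ 2 = x ^ 3 - 2 * x) :
    (u ^ 3 * f y) ^ 2 = (u ^ 2 * f x) ^ 3 - 2 * (u ^ 2 * f x) := by
  have h1 : f y ^ 2 = f x ^ 3 - 2 * f x := by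
    rw [← map_pow, h]; simp only [map_sub, map_mul, map_pow, map_ofNat]
  have h2 : (u ^ 3 * f y) ^ 2 = u ^ 4 * u ^ 2 * (f y ^ 2) := by ring
  have h3 : (u ^ 2 * f x) ^ 3 = u ^ 4 * u ^ 2 * f x ^ 3 := by ring
  rw [h2, h3, hu, h1]; ring

lemma tw_slope (f : F →+* K) {u : K} (hu : u ^ 4 = 1) (x₁ x₂ y₁ y₂ : F) :
    (EF K).slope (u ^ 2 * f x₁) (u ^ 2 * f x₂) (u ^ 3 * f y₁) (u ^ 3 * f y₂) =
      u * f ((EF F).slope x₁ x₂ y₁ y₂) := by
  have hu0 : u ≠ 0 := by
    rintro rfl
    norm_num at hu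
  by_cases hx : x₁ = x₂
  · subst hx
    by_cases hy : y₁ = (EF F).negY x₁ y₂
    · rw [WeierstrassCurve.Affine.slope_of_Y_eq rfl hy, WeierstrassCurve.Affine.slope_of_Y_eq rfl]
      · simp
      · rw [hy, negY_ef, negY_ef]; simp
    · rw [WeierstrassCurve.Affine.slope_of_Y_ne rfl hy, WeierstrassCurve.Affine.slope_of_Y_ne rfl,
        negY_ef, negY_ef]
      · rw [negY_ef] at hy
        have hy' : f y₁ + f y₁ ≠ 0 ∨ True := Or.inr trivial
        simp only [EF]
        have hd : y₁ - -y₁ ≠ 0 ∨ y₁ - -y₁ = 0 := (em _).symm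
        simp only [map_div₀, map_add, map_sub, map_mul, map_pow, map_neg, map_ofNat, map_zero]
        rcases hd with hd | hd
        · have hd' : f y₁ - -f y₁ ≠ 0 := by
            intro h
            apply hd
            apply f.injective
            rw [map_sub, map_neg, map_zero]; exact h
          have hd2 : u ^ 3 * f y₁ - -(u ^ 3 * f y₁) ≠ 0 := by
            have : u ^ 3 * f y₁ - -(u ^ 3 * f y₁) = u ^ 3 * (f y₁ - -f y₁) := by ring
            rw [this]
            exact mul_ne_zero (pow_ne_zero 3 hu0) hd'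
          rw [mul_div_assoc', div_eq_div_iff hd2 hd']
          linear_combination (3 * f x₁ ^ 2 * (f y₁ - -f y₁) -
            (3 * f x₁ ^ 2 - 2) * (f y₁ - -f y₁)) * hu
        · have h5 : y₁ = 0 := by
            have h3 : 2 * y₁ = 0 := by linear_combination hd
            rcases mul_eq_zero.1 h3 with h4 | h4
            · exact absurd h4 two_ne_zero
            · exact h4
          subst h5
          simp
      · intro h
        apply hy
        rw [negY_ef] at h ⊢
        apply f.injective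
        rw [map_neg]
        apply mul_left_cancel₀ (pow_ne_zero 3 hu0)
        rw [h]; ring
  · have hx' : u ^ 2 * f x₁ ≠ u ^ 2 * f x₂ := by
      intro h
      exact hx (f.injective (mul_left_cancel₀ (pow_ne_zero 2 hu0) h))
    rw [WeierstrassCurve.Affine.slope_of_X_ne hx, WeierstrassCurve.Affine.slope_of_X_ne hx']
    have h1 : f x₁ - f x₂ ≠ 0 := sub_ne_zero.2 (fun h => hx (f.injective h))
    rw [map_div₀, map_sub, map_sub, ← mul_sub, ← mul_sub]
    field_simp

/-- twisted base change: `(x, y)` is sent to `(u ^ 2 x, u ^ 3 y)`, `u ^ 4 = 1` -/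
noncomputable def tw (f : F →+* K) (u : K) (hu : u ^ 4 = 1) : (EF F).Point →+ (EF K).Point where
  toFun P := match P with
    | .zero => 0
    | .some x y h => pt (u ^ 2 * f x) (u ^ 3 * f y) (tw_eq f hu ((ef_nonsingular_iff x y).1 h))
  map_zero' := rfl
  map_add' P Q := by
    have hu0 : u ≠ 0 := by
      rintro rfl
      norm_num at hu
    rcases P with _ | ⟨x₁, y₁, h₁⟩
    · change _ = 0 + _
      rw [zero_add]
      have : (Affine.Point.zero : (EF F).Point) + Q = Q := zero_add Q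
      rw [this]
    rcases Q with _ | ⟨x₂, y₂, h₂⟩
    · change _ = _ + 0
      rw [add_zero]
      have : Affine.Point.some x₁ y₁ h₁ + (Affine.Point.zero : (EF F).Point) =
        Affine.Point.some x₁ y₁ h₁ := add_zero _
      rw [this]
    by_cases hxy : x₁ = x₂ ∧ y₁ = (EF F).negY x₂ y₂
    · rw [WeierstrassCurve.Affine.Point.add_of_Y_eq hxy.1 hxy.2]
      symm
      refine WeierstrassCurve.Affine.Point.add_of_Y_eq ?_ ?_
      · rw [hxy.1]
      · rw [hxy.2, negY_ef, negY_ef]; simp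
    · have hxy' : ¬ (u ^ 2 * f x₁ = u ^ 2 * f x₂ ∧
          u ^ 3 * f y₁ = (EF K).negY (u ^ 2 * f x₂) (u ^ 3 * f y₂)) := by
        rintro ⟨h3, h4⟩
        apply hxy
        refine ⟨f.injective (mul_left_cancel₀ (pow_ne_zero 2 hu0) h3), ?_⟩
        rw [negY_ef] at h4 ⊢
        apply f.injective
        apply mul_left_cancel₀ (pow_ne_zero 3 hu0)
        rw [h4, map_neg]; ring
      rw [WeierstrassCurve.Affine.Point.add_some hxy]
      simp only [pt]
      rw [WeierstrassCurve.Affine.Point.add_some hxy']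
      rw [WeierstrassCurve.Affine.Point.some.injEq]
      rw [tw_slope f hu]
      have hX : u ^ 2 * f ((EF F).addX x₁ x₂ ((EF F).slope x₁ x₂ y₁ y₂)) =
          (EF K).addX (u ^ 2 * f x₁) (u ^ 2 * f x₂) (u * f ((EF F).slope x₁ x₂ y₁ y₂)) := by
        simp only [WeierstrassCurve.Affine.addX, EF, map_sub, map_add, map_pow, map_mul, map_zero]
        ring
      refine ⟨hX, ?_⟩
      simp only [WeierstrassCurve.Affine.addY, WeierstrassCurve.Affine.negAddY, negY_ef]
      rw [← hX]
      simp only [map_neg, map_add, map_mul, map_sub]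
      ring

theorem tw_HX (f : F →+* K) (u : K) (hu : u ^ 4 = 1) {P : (EF F).Point} {x : F} (h : HX P x) :
    HX (tw f u hu P) (u ^ 2 * f x) := by
  obtain ⟨y, hy, rfl⟩ := h
  exact ⟨u ^ 3 * f y, tw_eq f hu hy, rfl⟩

theorem tw_tw (u : K) (hu : u ^ 4 = 1) (hu2 : u ^ 2 = -1) (P : (EF K).Point) :
    tw (RingHom.id K) u hu (tw (RingHom.id K) u hu P) = -P := by
  rcases P with _ | ⟨x, y, h⟩
  · rfl
  · have h0 := (ef_nonsingular_iff x y).1 h
    change pt (u ^ 2 * (u ^ 2 * x)) (u ^ 3 * (u ^ 3 * y))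
      (tw_eq (RingHom.id K) hu (tw_eq (RingHom.id K) hu h0)) = -pt x y h0
    rw [neg_pt]
    apply pt_congr
    · linear_combination x * hu
    · have : u ^ 3 * (u ^ 3 * y) = u ^ 4 * u ^ 2 * y := by ring
      rw [this, hu, hu2]; ring

end twist

end Vale.Agent.P027.R4.H849
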