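import Vale.Agent.P027.R4.H849.Cal

set_option linter.all false

/-! The predicates of row G are `RDio`. -/

namespace Vale.Agent.P027.D1

open MvPolynomial Vale.Agent.P345 Vale.Agent.P027 Vale.Agent.P027.HT

variable {C : Set ℚ → Prop} {F G H : (ℕ → ℚ) → EC.Point}

theorem dio_exP {S : EC.Point → (ℕ → ℚ) → Prop}
    (hS : Dio (fun v => S (dec (v 0) (v 1)) (tl (tl v)))) : Dio (fun v => ∃ P, S P v) := by
  have h : Dio (fun v => ∃ y x, S (dec x y) v) :=
    Dio.ex (S := fun y v => ∃ x, S (dec x y) v)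
      (Dio.ex (S := fun x v => S (dec x (v 0)) (tl v)) hS)
  refine h.congr (fun v => ⟨?_, ?_⟩)
  · rintro ⟨P, hP⟩
    obtain ⟨x, y, e⟩ := exists_dec P
    exact ⟨y, x, by rw [e]; exact hP⟩
  · rintro ⟨y, x, h⟩
    exact ⟨_, h⟩

theorem dio_ev (hEv : ∀ V : EC.Point, EvPt V ↔ ∃ W : EC.Point, V = W + W) (hF : DPt F) :
    Dio (fun v => EvPt (F v)) := by
  have h : Dio (fun v => ∃ W : EC.Point, F v = W + W) :=
    dio_exP (S := fun W v => F v = W + W) (dio_pt_eq hF.tl.tl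
      ((DPt.dec (DioFn.var 0) (DioFn.var 1)).add (DPt.dec (DioFn.var 0) (DioFn.var 1))))
  exact h.congr (fun v => hEv (F v))

theorem dio_pt_zero (hF : DPt F) : Dio (fun v => F v = 0) :=
  dio_pt_eq hF (DPt.const 0)

theorem dec_ne_zero_iff (x y : ℚ) : dec x y ≠ 0 ↔ y ^ 2 = x ^ 3 - 2 * x := by
  constructor
  · intro h
    by_contra h1
    exact h (dec_of_not h1)
  · intro h
    rw [dec_of h]
    exact WeierstrassCurve.Affine.Point.some_ne_zero _

theorem dio_pt_ne_zero (hF : DPt F) : Dio (fun v => F v ≠ 0) := by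
  refine DPt.subst (S := fun P _ => P ≠ 0) hF ?_
  have h : Dio (fun v => v 1 ^ 2 = v 0 ^ 3 - 2 * v 0) := dio_on (DioFn.var 0) (DioFn.var 1)
  exact h.congr (fun v => dec_ne_zero_iff _ _)

theorem rdio_denDvd (hC : ∀ R, C R → (0 : ℚ) ∈ R) {f g : (ℕ → ℚ) → ℚ} (hf : DioFn f)
    (hg : DioFn g) : RDio C (fun R v => DenDvd R (f v) (g v)) := by
  unfold DenDvd
  apply RDio.exR hC
  apply RDio.exR hC
  apply RDio.exR hC
  apply RDio.exR hC
  apply RDio.exR hC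
  apply RDio.exR hC
  apply RDio.exR hC
  apply RDio.exR hC
  apply RDio.exR hC
  have h1 : Dio (fun v => f (tl (tl (tl (tl (tl (tl (tl (tl (tl v))))))))) * v 7 = v 8) :=
    Dio.eq (hf.tl.tl.tl.tl.tl.tl.tl.tl.tl.mul (DioFn.var 7)) (DioFn.var 8)
  have h2 : Dio (fun v => v 6 * v 8 + v 5 * v 7 = 1) :=
    Dio.eq (((DioFn.var 6).mul (DioFn.var 8)).add ((DioFn.var 5).mul (DioFn.var 7)))
      (by simpa using DioFn.int 1)
  have h3 : Dio (fun v => g (tl (tl (tl (tl (tl (tl (tl (tl (tl v))))))))) * v 3 = v 4) :=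
    Dio.eq (hg.tl.tl.tl.tl.tl.tl.tl.tl.tl.mul (DioFn.var 3)) (DioFn.var 4)
  have h4 : Dio (fun v => v 2 * v 4 + v 1 * v 3 = 1) :=
    Dio.eq (((DioFn.var 2).mul (DioFn.var 4)).add ((DioFn.var 1).mul (DioFn.var 3)))
      (by simpa using DioFn.int 1)
  have h5 : Dio (fun v => v 3 = v 0 * v 7) :=
    Dio.eq (DioFn.var 3) ((DioFn.var 0).mul (DioFn.var 7))
  exact RDio.of_dio hC (h1.and (h2.and (h3.and (h4.and h5))))

theorem rdio_rel (hC : ∀ R, C R → (0 : ℚ) ∈ R) (B J : ℕ) (hF : DPt F) (hG : DPt G) :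
    RDio C (fun R v => RelP B J R (F v) (G v)) := by
  unfold RelP
  exact (RDio.of_dio hC (dio_pt_zero hG)).or ((RDio.of_dio hC (dio_pt_ne_zero hF)).and
    ((RDio.of_dio hC (dio_pt_ne_zero hG)).and
      (rdio_denDvd hC (hF.nsmul _).xc (hG.nsmul _).xc)))

theorem dio_cop (hEv : ∀ V : EC.Point, EvPt V ↔ ∃ W : EC.Point, V = W + W) (L : ℕ)
    (hF : DPt F) : Dio (fun v => CopP L (F v)) := by
  have key : ∀ N : ℕ, Dio (fun v => ∃ c < N, Nat.Coprime c L ∧
      ∃ K, EvPt K ∧ F v = c • ((2 : ℕ) • P0) + L • K) := by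
    intro N
    induction N with
    | zero => exact Dio.false.congr (fun v => by simp)
    | succ N ih =>
      have h1 : Dio (fun v => Nat.Coprime N L ∧
          ∃ K, EvPt K ∧ F v = N • ((2 : ℕ) • P0) + L • K) := by
        by_cases hN : Nat.Coprime N L
        · have h2 : Dio (fun v => ∃ K, EvPt K ∧ F v = N • ((2 : ℕ) • P0) + L • K) := by
            refine dio_exP (S := fun K v => EvPt K ∧ F v = N • ((2 : ℕ) • P0) + L • K) ?_
            exact (dio_ev hEv (DPt.dec (DioFn.var 0) (DioFn.var 1))).and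
              (dio_pt_eq hF.tl.tl ((DPt.const (N • ((2 : ℕ) • P0))).add
                ((DPt.dec (DioFn.var 0) (DioFn.var 1)).nsmul L)))
          exact h2.congr (fun v => ⟨fun h => h.2, fun h => ⟨hN, h⟩⟩)
        · exact Dio.false.congr (fun v => ⟨fun h => hN h.1, fun h => h.elim⟩)
      refine (ih.or h1).congr (fun v => ?_)
      constructor
      · rintro ⟨k, hk, h4⟩
        rcases Nat.lt_succ_iff_lt_or_eq.1 hk with h3 | h3
        · exact Or.inl ⟨k, h3, h4⟩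
        · rw [h3] at h4
          exact Or.inr h4
      · rintro (⟨k, hk, h4⟩ | h4)
        · exact ⟨k, by omega, h4⟩
        · exact ⟨N, by omega, h4⟩
  exact key L

theorem rdio_pow (hC : ∀ R, C R → (0 : ℚ) ∈ R)
    (hEv : ∀ V : EC.Point, EvPt V ↔ ∃ W : EC.Point, V = W + W) (B J : ℕ) (hF : DPt F) :
    RDio C (fun R v => PowP B J R (F v)) := by
  unfold PowP
  exact (RDio.of_dio hC (dio_ev hEv hF)).and ((RDio.of_dio hC (dio_pt_ne_zero hF)).and
    ((RDio.mem hC (hF.nsmul _).xc).and (RDio.of_dio hC (dio_cop hEv _ hF))))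

theorem dio_v2 (hF : DPt F) (hG : DPt G) : Dio (fun v => V2P (F v) (G v)) := by
  unfold V2P
  exact (dio_int2 (hG.xc.div ((lit_fn 4).mul (hF.xc.pow 2)))).and
    (dio_int2 (((lit_fn 4).mul (hF.xc.pow 2)).div hG.xc))

theorem dio_exEv (hEv : ∀ V : EC.Point, EvPt V ↔ ∃ W : EC.Point, V = W + W) (n : ℕ)
    (hF : DPt F) : Dio (fun v => ∃ K, EvPt K ∧ F v = n • K) := by
  refine dio_exP (S := fun K v => EvPt K ∧ F v = n • K) ?_
  exact (dio_ev hEv (DPt.dec (DioFn.var 0) (DioFn.var 1))).and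
    (dio_pt_eq hF.tl.tl ((DPt.dec (DioFn.var 0) (DioFn.var 1)).nsmul n))

theorem dio_one (hEv : ∀ V : EC.Point, EvPt V ↔ ∃ W : EC.Point, V = W + W) (m : ℕ)
    (hF : DPt F) : Dio (fun v => OneP m (F v)) := by
  unfold OneP
  exact dio_exEv hEv m (hF.sub (DPt.const (2 • P0)))

theorem rdio_sqO (hC : ∀ R, C R → (0 : ℚ) ∈ R)
    (hEv : ∀ V : EC.Point, EvPt V ↔ ∃ W : EC.Point, V = W + W) (B J : ℕ)
    (hF : DPt F) (hG : DPt G) : RDio C (fun R v => SqOP B J R (F v) (G v)) := by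
  unfold SqOP
  apply RDio.exP hC
  apply RDio.exP hC
  apply RDio.exP hC
  apply RDio.exP hC
  have p8 : DPt (fun v => dec (v 0) (v 1)) := DPt.dec (DioFn.var 0) (DioFn.var 1)
  have p4 : DPt (fun v => dec (v 2) (v 3)) := DPt.dec (DioFn.var 2) (DioFn.var 3)
  have p2 : DPt (fun v => dec (v 4) (v 5)) := DPt.dec (DioFn.var 4) (DioFn.var 5)
  have p1 : DPt (fun v => dec (v 6) (v 7)) := DPt.dec (DioFn.var 6) (DioFn.var 7)
  have c2 : DPt (fun _ => 2 • P0) := DPt.const _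
  have hF' := hF.tl.tl.tl.tl.tl.tl.tl.tl
  have hG' := hG.tl.tl.tl.tl.tl.tl.tl.tl
  exact ((rdio_pow hC hEv B J p1).and ((rdio_pow hC hEv B J p2).and
      ((rdio_pow hC hEv B J p4).and (rdio_pow hC hEv B J p8)))).and
    ((RDio.of_dio hC (dio_exEv hEv 2 p1)).and
    ((RDio.of_dio hC ((dio_v2 p1 p2).and ((dio_v2 p2 p4).and (dio_v2 p4 p8)))).and
    ((RDio.of_dio hC ((dio_one hEv 3 p4).and ((dio_one hEv 3 p8).and (dio_one hEv _ p4)))).and
    ((rdio_rel hC B J hF' (p1.sub c2)).and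
    ((rdio_rel hC B J hG' (p1.sub c2)).and
    (rdio_rel hC B J (p4.sub hF') (p8.sub hG')))))))

theorem rdio_sq (hC : ∀ R, C R → (0 : ℚ) ∈ R)
    (hEv : ∀ V : EC.Point, EvPt V ↔ ∃ W : EC.Point, V = W + W) (B J : ℕ)
    (hF : DPt F) (hG : DPt G) : RDio C (fun R v => SqP B J R (F v) (G v)) := by
  unfold SqP
  exact (RDio.of_dio hC (dio_ev hEv hF)).and ((RDio.of_dio hC (dio_ev hEv hG)).and
    (rdio_sqO hC hEv B J ((hF.nsmul (2 * J)).sub (DPt.const (2 • P0)))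
      (((hG.nsmul (4 * J ^ 2)).sub (hF.nsmul (4 * J))).add (DPt.const (2 • P0)))))

theorem rdio_mul (hC : ∀ R, C R → (0 : ℚ) ∈ R)
    (hEv : ∀ V : EC.Point, EvPt V ↔ ∃ W : EC.Point, V = W + W) (B J : ℕ)
    (hF : DPt F) (hG : DPt G) (hH : DPt H) :
    RDio C (fun R v => MulP B J R (F v) (G v) (H v)) := by
  unfold MulP
  refine (RDio.of_dio hC (dio_ev hEv hH)).and ?_
  apply RDio.exP hC
  apply RDio.exP hC
  apply RDio.exP hC
  have pD : DPt (fun v => dec (v 0) (v 1)) := DPt.dec (DioFn.var 0) (DioFn.var 1)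
  have pC : DPt (fun v => dec (v 2) (v 3)) := DPt.dec (DioFn.var 2) (DioFn.var 3)
  have pA : DPt (fun v => dec (v 4) (v 5)) := DPt.dec (DioFn.var 4) (DioFn.var 5)
  have hF' := hF.tl.tl.tl.tl.tl.tl
  have hG' := hG.tl.tl.tl.tl.tl.tl
  have hH' := hH.tl.tl.tl.tl.tl.tl
  exact (rdio_sq hC hEv B J hF' pA).and ((rdio_sq hC hEv B J hG' pC).and
    ((rdio_sq hC hEv B J (hF'.add hG') pD).and
    (RDio.of_dio hC (dio_pt_eq pD ((pA.add pC).add (hH'.nsmul 2))))))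

theorem rowC1_of (hEv : ∀ V : EC.Point, EvPt V ↔ ∃ W : EC.Point, V = W + W) : RowC1 := by
  intro B J F G H hF hG hH
  exact rdio_mul (fun R hR => by simpa using hR.int 0) hEv B J hF hG hH

end Vale.Agent.P027.D1
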