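import Vale.Agent.P027.R4.H849.Cong
import Vale.Agent.P027.R4.H788.Arith

set_option linter.all false

/-! Primes `q` modulo which the order of `P0` is a prime `r` with `2 (q + 1) < r ^ 2`: the full
power of `q` in the denominator of `r P0` divides the numerator of `x(s P0) + x(t P0)`,
where `r = s ^ 2 + t ^ 2`. -/

namespace Vale.Agent.P027.R4.H849

open Vale.Agent.P345 Vale.Agent.P027 Vale.Agent.P027.HT Vale.Agent.P027.D1
open Vale.Agent.P027.R4.H297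

section

variable {q : ℕ} [hq : Fact q.Prime] [DecidableEq ℚ_[q]]

theorem ec_eq : EF ℚ = EC := rfl

/-- base change -/
noncomputable def jj (q : ℕ) [hq : Fact q.Prime] [DecidableEq ℚ_[q]] :
    EC.Point →+ (EF ℚ_[q]).Point :=
  tw (F := ℚ) (Rat.castHom ℚ_[q]) 1 (one_pow 4)

theorem jj_HX {V : EC.Point} {x : ℚ} (h : HasX V x) : HX (jj q V) (x : ℚ_[q]) := by
  have h1 : HX (F := ℚ) V x := h
  have h2 := tw_HX (Rat.castHom ℚ_[q]) 1 (one_pow 4) h1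
  rw [one_pow, one_mul] at h2
  exact h2

theorem norm_cast_rat (x : ℚ) : ‖(x : ℚ_[q])‖ = ((padicNorm q x : ℚ) : ℝ) := Padic.eq_padicNorm x

theorem mem_iff_dvd {k : ℕ} (hk : 1 ≤ k) (h : (1 : ℝ) < (q : ℝ) ^ k) {n : ℤ} (hn : n ≠ 0) :
    jj q (n • P0) ∈ EB ((q : ℝ) ^ k) h ↔ q ^ k ∣ (xc (n • P0)).den := by
  have hX := hasX_xc (zsmul_P0_ne_zero hn)
  rw [mem_EB_of_HX _ (jj_HX hX), norm_cast_rat, pow_dvd_den_iff hk]
  constructor
  · intro h1; exact_mod_cast h1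
  · intro h1; exact_mod_cast h1

theorem mem_EB_zsmul {r : ℕ} (ho : Ord q r) (n : ℤ) :
    n • jj q P0 ∈ EB (q : ℝ) one_lt_q ↔ (r : ℤ) ∣ n := by
  have e : n • jj q P0 = jj q (n • P0) := (map_zsmul (jj q) n P0).symm
  rw [e]
  by_cases hn : n = 0
  · subst hn
    simp only [zero_zsmul, map_zero, dvd_zero, iff_true]
    exact AddSubgroup.zero_mem _
  · rw [← ho.2 n]
    have h1 := mem_iff_dvd (q := q) (k := 1) le_rfl (by rw [pow_one]; exact one_lt_q) hn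
    simp only [pow_one] at h1
    rw [h1]
    unfold Dv
    simp [hn]

theorem zsmul_jj_ne {n : ℤ} (hn : n ≠ 0) : n • jj q P0 ≠ 0 := by
  have e : n • jj q P0 = jj q (n • P0) := (map_zsmul (jj q) n P0).symm
  rw [e]
  exact (jj_HX (hasX_xc (zsmul_P0_ne_zero hn))).ne_zero

/-- square root of minus one -/
theorem exists_iota (hq4 : q % 4 = 1) : ∃ u : ℚ_[q], u ^ 2 = -1 := by
  have h1 : IsSquare (-1 : ZMod q) := by
    rw [ZMod.exists_sq_eq_neg_one_iff]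
    omega
  obtain ⟨y, hy⟩ := h1
  let a : ℤ_[q] := (y.val : ℤ_[q])
  have hay : PadicInt.toZMod a = y := by
    have hne : NeZero q := ⟨hq.out.ne_zero⟩
    simp only [a, map_natCast]
    exact ZMod.natCast_zmod_val y
  have h2 : ‖a ^ 2 + 1‖ < 1 := by
    have h3 : PadicInt.toZMod (a ^ 2 + 1) = 0 := by
      rw [map_add, map_pow, hay, map_one, sq, ← hy]; ring
    rw [← RingHom.mem_ker, PadicInt.ker_toZMod, PadicInt.maximalIdeal_eq_span_p,
      Ideal.mem_span_singleton, ← PadicInt.norm_lt_one_iff_dvd] at h3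
    exact h3
  have hq2 : ¬ q ∣ 2 := by
    intro h
    have h3 := (Nat.prime_dvd_prime_iff_eq hq.out Nat.prime_two).1 h
    omega
  have n2 : ‖(2 : ℤ_[q])‖ = 1 := by
    have h3 : ¬ ‖((2 : ℤ) : ℤ_[q])‖ < 1 := by
      rw [PadicInt.norm_int_lt_one_iff_dvd]
      intro h
      exact hq2 (by exact_mod_cast h)
    have h4 : ‖((2 : ℤ) : ℤ_[q])‖ ≤ 1 := PadicInt.norm_le_one _
    have h5 : ‖((2 : ℤ) : ℤ_[q])‖ = 1 := le_antisymm h4 (not_lt.1 h3)
    exact_mod_cast h5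
  have na : ‖a‖ = 1 := by
    have h3 : ¬ ‖a‖ < 1 := by
      intro h
      have h4 : ‖a ^ 2‖ < 1 := by
        rw [norm_pow]; exact pow_lt_one₀ (norm_nonneg _) h (by norm_num)
      have h5 : (1 : ℤ_[q]) = (a ^ 2 + 1) + -(a ^ 2) := by ring
      have h6 : ‖(1 : ℤ_[q])‖ < 1 := by
        rw [h5]
        refine lt_of_le_of_lt (PadicInt.nonarchimedean _ _) (max_lt h2 ?_)
        rw [norm_neg]; exact h4
      rw [norm_one] at h6
      exact lt_irrefl _ h6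
    exact le_antisymm (PadicInt.norm_le_one _) (not_lt.1 h3)
  obtain ⟨z, hz, -⟩ := hensels_lemma (p := q) (R := ℤ_[q])
    (F := (Polynomial.X ^ 2 + 1 : Polynomial ℤ_[q])) (a := a) (by
      simp only [map_add, map_pow, Polynomial.aeval_X, map_one, Polynomial.derivative_add,
        Polynomial.derivative_X_pow, Polynomial.derivative_one, add_zero]
      have : ‖(Polynomial.aeval a) (Polynomial.C ((2 : ℕ) : ℤ_[q]) * Polynomial.X ^ (2 - 1))‖ = 1 := by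
        simp [n2, na]
      rw [this]
      simpa using h2)
  refine ⟨(z : ℚ_[q]), ?_⟩
  have h7 : z ^ 2 + 1 = 0 := by simpa using hz
  have h8 : ((z ^ 2 + 1 : ℤ_[q]) : ℚ_[q]) = 0 := by rw [h7]; rfl
  push_cast at h8
  linear_combination h8

theorem norm_two (hq2 : q ≠ 2) : ‖(2 : ℚ_[q])‖ = 1 := by
  have h3 : ¬ ‖((2 : ℤ) : ℚ_[q])‖ < 1 := by
    rw [Padic.norm_intCast_lt_one_iff]
    intro h
    have h1 : q ∣ 2 := by exact_mod_cast h
    exact hq2 ((Nat.prime_dvd_prime_iff_eq hq.out Nat.prime_two).1 h1)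
  have h5 : ‖((2 : ℤ) : ℚ_[q])‖ = 1 := le_antisymm (Padic.norm_int_le_one _) (not_lt.1 h3)
  exact_mod_cast h5

/-- complex multiplication preserves the norm of the first coordinate -/
theorem tw_mem {u : ℚ_[q]} (hu : u ^ 4 = 1) (hu2 : u ^ 2 = -1) {B : ℝ} {hB : 1 < B}
    {V : (EF ℚ_[q]).Point} (hV : V ∈ EB B hB) : tw (RingHom.id ℚ_[q]) u hu V ∈ EB B hB := by
  by_cases h0 : V = 0
  · subst h0; rw [map_zero]; exact AddSubgroup.zero_mem _
  · obtain ⟨x, hx⟩ := exists_HX h0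
    rw [mem_EB_of_HX _ hx] at hV
    rw [mem_EB_of_HX _ (tw_HX (RingHom.id ℚ_[q]) u hu hx), hu2]
    simpa using hV

theorem tw_mem_iff {u : ℚ_[q]} (hu : u ^ 4 = 1) (hu2 : u ^ 2 = -1) {B : ℝ} {hB : 1 < B}
    {V : (EF ℚ_[q]).Point} : tw (RingHom.id ℚ_[q]) u hu V ∈ EB B hB ↔ V ∈ EB B hB := by
  refine ⟨fun h => ?_, tw_mem hu hu2⟩
  have h1 := tw_mem hu hu2 h
  rw [tw_tw u hu hu2] at h1
  exact (AddSubgroup.neg_mem_iff _).1 h1

/-- a relation between `P0` and its image under complex multiplication -/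
theorem exists_rel {r : ℕ} (ho : Ord q r) (hr : r.Prime) (hq2 : q ≠ 2)
    (hlt : 2 * (q + 1) < r ^ 2) {u : ℚ_[q]} (hu : u ^ 4 = 1) (hu2 : u ^ 2 = -1) :
    ∃ A B : ℤ, ¬ (r : ℤ) ∣ B ∧
      A • jj q P0 + B • tw (RingHom.id ℚ_[q]) u hu (jj q P0) ∈ EB (q : ℝ) one_lt_q := by
  obtain ⟨⟨a, b⟩, ⟨a', b'⟩, hne, hmem⟩ := pigeon (norm_two hq2)
    (fun ab : Fin r × Fin r => ((ab.1 : ℕ) : ℤ) • jj q P0 +
      ((ab.2 : ℕ) : ℤ) • tw (RingHom.id ℚ_[q]) u hu (jj q P0))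
    (by rw [Fintype.card_prod, Fintype.card_fin, ← sq]; exact hlt)
  simp only at hmem
  set P := jj q P0 with hP
  set P1 := tw (RingHom.id ℚ_[q]) u hu P with hP1
  have e : ((a : ℕ) : ℤ) • P + ((b : ℕ) : ℤ) • P1 - (((a' : ℕ) : ℤ) • P + ((b' : ℕ) : ℤ) • P1) =
      (((a : ℕ) : ℤ) - ((a' : ℕ) : ℤ)) • P + (((b : ℕ) : ℤ) - ((b' : ℕ) : ℤ)) • P1 := by
    rw [sub_zsmul, sub_zsmul]; abel
  rw [e] at hmem
  refine ⟨_, _, ?_, hmem⟩
  intro hB
  have ha := a.2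
  have ha' := a'.2
  have hb := b.2
  have hb' := b'.2
  have h0 : ((b : ℕ) : ℤ) - ((b' : ℕ) : ℤ) = 0 := by
    obtain ⟨c, hc⟩ := hB
    have h1 : (((b : ℕ) : ℤ) - ((b' : ℕ) : ℤ)) < r := by omega
    have h2 : -(r : ℤ) < (((b : ℕ) : ℤ) - ((b' : ℕ) : ℤ)) := by omega
    rw [hc] at h1 h2 ⊢
    have hr0 : (0 : ℤ) < r := by exact_mod_cast hr.pos
    have h3 : c < 1 := by nlinarith
    have h4 : -1 < c := by nlinarith
    have h5 : c = 0 := by omega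
    rw [h5, mul_zero]
  rw [h0, zero_zsmul, add_zero, mem_EB_zsmul ho] at hmem
  have h1 : ((a : ℕ) : ℤ) - ((a' : ℕ) : ℤ) = 0 := by
    obtain ⟨c, hc⟩ := hmem
    have h1 : (((a : ℕ) : ℤ) - ((a' : ℕ) : ℤ)) < r := by omega
    have h2 : -(r : ℤ) < (((a : ℕ) : ℤ) - ((a' : ℕ) : ℤ)) := by omega
    rw [hc] at h1 h2 ⊢
    have hr0 : (0 : ℤ) < r := by exact_mod_cast hr.pos
    have h3 : c < 1 := by nlinarith
    have h4 : -1 < c := by nlinarith
    have h5 : c = 0 := by omega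
    rw [h5, mul_zero]
  apply hne
  ext
  · simp only; omega
  · simp only; omega

/-- the element of norm `r` which annihilates `P0` modulo `q` -/
theorem exists_W {r : ℕ} (ho : Ord q r) (hr : r.Prime) (hq2 : q ≠ 2)
    (hlt : 2 * (q + 1) < r ^ 2) {u : ℚ_[q]} (hu : u ^ 4 = 1) (hu2 : u ^ 2 = -1) :
    IsSquare (-1 : ZMod r) ∧ ∀ s t : ℤ, s ^ 2 + t ^ 2 = r → ∃ t' : ℤ, (t' = t ∨ t' = -t) ∧
      s • jj q P0 + t' • tw (RingHom.id ℚ_[q]) u hu (jj q P0) ∈ EB (q : ℝ) one_lt_q := by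
  obtain ⟨A, B, hB, hmem⟩ := exists_rel ho hr hq2 hlt hu hu2
  set P := jj q P0 with hP
  set P1 := tw (RingHom.id ℚ_[q]) u hu P with hP1
  have htw : tw (RingHom.id ℚ_[q]) u hu P1 = -P := tw_tw u hu hu2 P
  have hmem2 : A • P1 - B • P ∈ EB (q : ℝ) one_lt_q := by
    have h1 := tw_mem hu hu2 hmem
    rw [map_add, map_zsmul, map_zsmul, htw, zsmul_neg, ← sub_eq_add_neg] at h1
    exact h1
  have hsum : (A ^ 2 + B ^ 2) • P ∈ EB (q : ℝ) one_lt_q := by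
    have h1 := AddSubgroup.sub_mem _ (AddSubgroup.zsmul_mem _ hmem A)
      (AddSubgroup.zsmul_mem _ hmem2 B)
    have e : A • (A • P + B • P1) - B • (A • P1 - B • P) = (A ^ 2 + B ^ 2) • P := by
      module
    rwa [e] at h1
  rw [mem_EB_zsmul ho] at hsum
  have hrp : Prime (r : ℤ) := Nat.prime_iff_prime_int.1 hr
  have hfact : Fact r.Prime := ⟨hr⟩
  refine ⟨?_, ?_⟩
  · have h1 : ((A ^ 2 + B ^ 2 : ℤ) : ZMod r) = 0 := (ZMod.intCast_zmod_eq_zero_iff_dvd _ r).2 hsum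
    have h2 : (B : ZMod r) ≠ 0 := by
      intro h
      exact hB ((ZMod.intCast_zmod_eq_zero_iff_dvd _ r).1 h)
    push_cast at h1
    refine ⟨A / B, ?_⟩
    field_simp
    linear_combination -h1
  · intro s t hst
    have h1 : (r : ℤ) ∣ (A * t - B * s) * (A * t + B * s) := by
      obtain ⟨c, hc⟩ := hsum
      refine ⟨t ^ 2 * c - B ^ 2, ?_⟩
      linear_combination t ^ 2 * hc - B ^ 2 * hst
    -- the main step, for a sign
    have key : ∀ t' : ℤ, s ^ 2 + t' ^ 2 = r → (r : ℤ) ∣ B * s - A * t' →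
        s • P + t' • P1 ∈ EB (q : ℝ) one_lt_q := by
      intro t' hst' hd
      have k1 : B • (s • P + t' • P1) ∈ EB (q : ℝ) one_lt_q := by
        have h2 := AddSubgroup.add_mem _ (AddSubgroup.zsmul_mem _ hmem t')
          ((mem_EB_zsmul ho _).2 hd)
        have e : t' • (A • P + B • P1) + (B * s - A * t') • P = B • (s • P + t' • P1) := by
          module
        rwa [e] at h2
      have k2 : (r : ℤ) • (s • P + t' • P1) ∈ EB (q : ℝ) one_lt_q := by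
        have h2 : (r : ℤ) • P ∈ EB (q : ℝ) one_lt_q := (mem_EB_zsmul ho _).2 dvd_rfl
        have h3 : (r : ℤ) • P1 ∈ EB (q : ℝ) one_lt_q := by
          have := tw_mem hu hu2 h2
          rwa [map_zsmul] at this
        have h4 := AddSubgroup.add_mem _ (AddSubgroup.zsmul_mem _ h2 s)
          (AddSubgroup.zsmul_mem _ h3 t')
        have e : s • ((r : ℤ) • P) + t' • ((r : ℤ) • P1) = (r : ℤ) • (s • P + t' • P1) := by
          module
        rwa [e] at h4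
      have hcop : IsCoprime B (r : ℤ) := by
        rw [isCoprime_comm]
        exact (hrp.coprime_iff_not_dvd).2 hB
      obtain ⟨x, y, hxy⟩ := hcop
      have h5 := AddSubgroup.add_mem _ (AddSubgroup.zsmul_mem _ k1 x)
        (AddSubgroup.zsmul_mem _ k2 y)
      rw [← mul_zsmul, ← mul_zsmul, ← add_zsmul, hxy, one_zsmul] at h5
      exact h5
    rcases hrp.dvd_or_dvd h1 with h2 | h2
    · refine ⟨t, Or.inl rfl, key t hst ?_⟩
      have e : B * s - A * t = -(A * t - B * s) := by ring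
      rw [e]
      exact (dvd_neg).2 h2
    · refine ⟨-t, Or.inr rfl, key (-t) (by rw [neg_sq]; exact hst) ?_⟩
      have e : B * s - A * -t = A * t + B * s := by ring
      rw [e]
      exact h2

/-- **Lemma BB.** -/
theorem bb {r : ℕ} (ho : Ord q r) (hr : r.Prime) (hq4 : q % 4 = 1)
    (hlt : 2 * (q + 1) < r ^ 2) : IsSquare (-1 : ZMod r) ∧ ∀ s t : ℤ, s ^ 2 + t ^ 2 = r →
      ∀ k : ℕ, q ^ (2 * k) ∣ (xc ((r : ℤ) • P0)).den →
        (q : ℤ) ^ k ∣ r * (xc (s • P0) + xc (t • P0)).num := by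
  obtain ⟨u, hu2⟩ := exists_iota hq4
  have hu : u ^ 4 = 1 := by
    have : u ^ 4 = (u ^ 2) ^ 2 := by ring
    rw [this, hu2]; norm_num
  have hq2 : q ≠ 2 := by
    rintro rfl
    omega
  obtain ⟨hsq, hW⟩ := exists_W ho hr hq2 hlt hu hu2
  refine ⟨hsq, fun s t hst k hk => ?_⟩
  obtain ⟨t', ht', hmem⟩ := hW s t hst
  rcases Nat.eq_zero_or_pos k with rfl | hk0
  · simp
  set P := jj q P0 with hP
  set P1 := tw (RingHom.id ℚ_[q]) u hu P with hP1
  have htw : tw (RingHom.id ℚ_[q]) u hu P1 = -P := tw_tw u hu hu2 P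
  have hst' : s ^ 2 + t' ^ 2 = r := by
    rcases ht' with h | h
    · rw [h]; exact hst
    · rw [h, neg_sq]; exact hst
  set W := s • P + t' • P1 with hWdef
  have hr0 : (r : ℤ) ≠ 0 := by exact_mod_cast hr.ne_zero
  -- multiples of `W` do not vanish
  have hne : ∀ m : ℕ, 1 ≤ m → m • W ≠ 0 := by
    intro m hm h
    have h1 : (m : ℤ) • W = 0 := by rw [natCast_zsmul]; exact h
    have h2 : tw (RingHom.id ℚ_[q]) u hu ((m : ℤ) • W) = 0 := by rw [h1, map_zero]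
    have e1 : tw (RingHom.id ℚ_[q]) u hu ((m : ℤ) • W) = (m : ℤ) • (s • P1 - t' • P) := by
      rw [map_zsmul, hWdef, map_add, map_zsmul, map_zsmul, htw, zsmul_neg, ← sub_eq_add_neg]
    rw [e1] at h2
    have e2 : s • ((m : ℤ) • W) - t' • ((m : ℤ) • (s • P1 - t' • P)) =
        ((m : ℤ) * (s ^ 2 + t' ^ 2)) • P := by
      rw [hWdef]; module
    rw [h1, h2, zsmul_zero, zsmul_zero, sub_zero, hst'] at e2
    exact zsmul_jj_ne (mul_ne_zero (by exact_mod_cast (by omega : m ≠ 0)) hr0) e2.symm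
  have hW0 : W ≠ 0 := by
    have := hne 1 le_rfl
    rwa [one_nsmul] at this
  obtain ⟨w, hw⟩ := exists_HX hW0
  have hw1 : 1 < ‖w‖ := by
    rw [mem_EB_of_HX _ hw, q_le_iff] at hmem
    exact hmem
  -- the norm of `x(W)`
  have hqk : (1 : ℝ) < (q : ℝ) ^ (2 * k) := one_lt_pow₀ one_lt_q (by omega)
  have hrP : (r : ℤ) • P ∈ EB ((q : ℝ) ^ (2 * k)) hqk := by
    have h1 := (mem_iff_dvd (q := q) (k := 2 * k) (by omega) hqk hr0).2 hk
    have e : jj q ((r : ℤ) • P0) = (r : ℤ) • P := map_zsmul (jj q) (r : ℤ) P0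
    rwa [e] at h1
  have hrP1 : (r : ℤ) • P1 ∈ EB ((q : ℝ) ^ (2 * k)) hqk := by
    have := tw_mem hu hu2 hrP
    rwa [map_zsmul] at this
  have hrW : r • W ∈ EB ((q : ℝ) ^ (2 * k)) hqk := by
    have h4 := AddSubgroup.add_mem _ (AddSubgroup.zsmul_mem _ hrP s)
      (AddSubgroup.zsmul_mem _ hrP1 t')
    have e : s • ((r : ℤ) • P) + t' • ((r : ℤ) • P1) = r • W := by
      rw [hWdef, ← natCast_zsmul]; module
    rwa [e] at h4
  obtain ⟨w', hw'⟩ := exists_HX (hne r hr.one_lt.le)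
  rw [mem_EB_of_HX _ hw'] at hrW
  have hnw := norm_smul_prime hw hw1 hne hr hw'
  have hwk : (q : ℝ) ^ (2 * k) * ‖(r : ℚ_[q])‖ ^ 2 ≤ ‖w‖ := by
    rw [← hnw]
    exact mul_le_mul_of_nonneg_right hrW (by positivity)
  -- `s` and `t` are not divisible by `r`
  have hs0 : s ≠ 0 ∧ t' ≠ 0 ∧ ¬ (r : ℤ) ∣ s ∧ ¬ (r : ℤ) ∣ t' := by
    have hrp : Prime (r : ℤ) := Nat.prime_iff_prime_int.1 hr
    have hr1 : (1 : ℤ) < r := by exact_mod_cast hr.one_lt
    have aux : ∀ a b : ℤ, a ^ 2 + b ^ 2 = r → ¬ (r : ℤ) ∣ a := by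
      intro a b hab hd
      have h1 : (r : ℤ) ∣ b ^ 2 := by
        have : b ^ 2 = r - a * a := by linear_combination hab
        rw [this]
        exact dvd_sub dvd_rfl (Dvd.dvd.mul_right hd a)
      have h2 : (r : ℤ) ∣ b := hrp.dvd_of_dvd_pow h1
      obtain ⟨c, rfl⟩ := hd
      obtain ⟨d, rfl⟩ := h2
      have h3 : (r : ℤ) * (r * (c ^ 2 + d ^ 2)) = r * 1 := by linear_combination hab
      have h4 := mul_left_cancel₀ hr0 h3
      have h5 : (r : ℤ) ∣ 1 := ⟨_, h4.symm⟩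
      have := Int.le_of_dvd one_pos h5
      omega
    have h1 := aux s t' hst'
    have h2 := aux t' s (by rw [add_comm]; exact hst')
    refine ⟨?_, ?_, h1, h2⟩
    · rintro rfl; exact h1 (dvd_zero _)
    · rintro rfl; exact h2 (dvd_zero _)
  obtain ⟨hs0, ht0, hrs, hrt⟩ := hs0
  -- coordinates
  have hXs := jj_HX (q := q) (hasX_xc (zsmul_P0_ne_zero hs0))
  have hXt := jj_HX (q := q) (hasX_xc (zsmul_P0_ne_zero ht0))
  have es : jj q (s • P0) = s • P := map_zsmul (jj q) s P0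
  have et : jj q (t' • P0) = t' • P := map_zsmul (jj q) t' P0
  rw [es] at hXs
  rw [et] at hXt
  have hXt1 : HX (-(t' • P1)) (-((xc (t' • P0) : ℚ) : ℚ_[q])) := by
    have h1 := tw_HX (RingHom.id ℚ_[q]) u hu hXt
    rw [map_zsmul, hu2, RingHom.id_apply, neg_one_mul] at h1
    exact h1.neg
  have hint : ‖(-((xc (t' • P0) : ℚ) : ℚ_[q]))‖ ≤ 1 := by
    rw [norm_neg]
    by_contra hcon
    push Not at hcon
    have h1 : t' • P ∈ EB (q : ℝ) one_lt_q := by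
      rw [mem_EB_of_HX _ hXt, q_le_iff]; exact hcon
    exact hrt ((mem_EB_zsmul ho _).1 h1)
  have hneq : (-((xc (t' • P0) : ℚ) : ℚ_[q])) ≠ w := by
    intro h
    rw [h] at hint
    linarith
  obtain ⟨x1, x2, hx1, hx2, r1, r2⟩ := HX_add_sub hXt1 hw hneq
  have e3 : -(t' • P1) + W = s • P := by rw [hWdef]; abel
  rw [e3] at hx1
  have hx1' := hx1.unique hXs
  have hfin := congr_x hint hw1 r1 r2
  rw [hx1', sub_neg_eq_add] at hfin
  -- conclusion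
  have hxt : xc (t' • P0) = xc (t • P0) := by
    rcases ht' with h | h
    · rw [h]
    · rw [h, neg_zsmul]
      have ht1 : t ≠ 0 := by
        intro h0
        rw [h0, neg_zero] at h
        exact ht0 h
      have h1 := hasX_xc (zsmul_P0_ne_zero ht1)
      exact (hasX_xc (h1.neg).ne_zero).unique h1.neg
  rw [hxt] at hfin
  set z : ℚ := xc (s • P0) + xc (t • P0) with hz
  have hfin2 : ‖(z : ℚ_[q])‖ ^ 2 * ‖w‖ ≤ 1 := by
    rw [hz]; push_cast; exact hfin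
  have h6 : (‖(z : ℚ_[q])‖ * ‖(r : ℚ_[q])‖ * (q : ℝ) ^ k) ^ 2 ≤ 1 := by
    calc (‖(z : ℚ_[q])‖ * ‖(r : ℚ_[q])‖ * (q : ℝ) ^ k) ^ 2
        = ‖(z : ℚ_[q])‖ ^ 2 * ((q : ℝ) ^ (2 * k) * ‖(r : ℚ_[q])‖ ^ 2) := by
          rw [pow_mul]; ring
      _ ≤ ‖(z : ℚ_[q])‖ ^ 2 * ‖w‖ := mul_le_mul_of_nonneg_left hwk (by positivity)
      _ ≤ 1 := hfin2
  have hqk0 : (0 : ℝ) < (q : ℝ) ^ k := by
    have := one_lt_q (q := q)
    positivity
  have h7 : ‖(z : ℚ_[q])‖ * ‖(r : ℚ_[q])‖ * (q : ℝ) ^ k ≤ 1 := by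
    by_contra hcon
    push Not at hcon
    have := one_lt_pow₀ hcon (two_ne_zero)
    linarith
  have h8 : ‖((r * z.num : ℤ) : ℚ_[q])‖ ≤ (q : ℝ) ^ (-(k : ℤ)) := by
    have h9 : ((z.num : ℤ) : ℚ_[q]) = (z : ℚ_[q]) * ((z.den : ℕ) : ℚ_[q]) := by
      have h10 : (z.num : ℚ) = z * z.den := (Rat.mul_den_eq_num z).symm
      exact_mod_cast congrArg (fun x : ℚ => (x : ℚ_[q])) h10
    push_cast
    rw [norm_mul, h9, norm_mul, zpow_neg, zpow_natCast, ← one_div, le_div_iff₀ hqk0]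
    have h11 : ‖((z.den : ℕ) : ℚ_[q])‖ ≤ 1 := nat_le _
    calc ‖(r : ℚ_[q])‖ * (‖(z : ℚ_[q])‖ * ‖((z.den : ℕ) : ℚ_[q])‖) * (q : ℝ) ^ k
        ≤ ‖(r : ℚ_[q])‖ * (‖(z : ℚ_[q])‖ * 1) * (q : ℝ) ^ k := by gcongr
      _ = ‖(z : ℚ_[q])‖ * ‖(r : ℚ_[q])‖ * (q : ℝ) ^ k := by ring
      _ ≤ 1 := h7
  rw [Padic.norm_int_le_pow_iff_dvd] at h8
  exact_mod_cast h8

end

/-- version with all hypotheses over the integers -/
theorem bb' {q r : ℕ} (hq : q.Prime) (ho : Ord q r) (hr : r.Prime) (hq4 : q % 4 = 1)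
    (hlt : 2 * (q + 1) < r ^ 2) : IsSquare (-1 : ZMod r) ∧ ∀ s t : ℤ, s ^ 2 + t ^ 2 = r →
      ∀ k : ℕ, q ^ (2 * k) ∣ (xc ((r : ℤ) • P0)).den →
        (q : ℤ) ^ k ∣ r * (xc (s • P0) + xc (t • P0)).num := by
  classical
  have : Fact q.Prime := ⟨hq⟩
  exact bb ho hr hq4 hlt

end Vale.Agent.P027.R4.H849
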