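import Vale.Agent.P027.R4.H297.Nq

set_option linter.all false

/-! Congruences between first coordinates, pigeonhole for points modulo the kernel of reduction. -/

namespace Vale.Agent.P027.R4.H849

open Vale.Agent.P027.R4.H297

section norms

variable {q : ℕ} [hq : Fact q.Prime]

lemma nadd_le (a b : ℚ_[q]) : ‖a + b‖ ≤ max ‖a‖ ‖b‖ := Padic.nonarchimedean a b

lemma nsub_le (a b : ℚ_[q]) : ‖a - b‖ ≤ max ‖a‖ ‖b‖ := by
  rw [sub_eq_add_neg]
  exact (nadd_le a (-b)).trans (by rw [norm_neg])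

lemma nadd_left {a b : ℚ_[q]} (h : ‖b‖ < ‖a‖) : ‖a + b‖ = ‖a‖ := by
  rw [Padic.add_eq_max_of_ne h.ne', max_eq_left h.le]

lemma nint_le (n : ℤ) : ‖(n : ℚ_[q])‖ ≤ 1 := Padic.norm_int_le_one n

lemma nat_le (n : ℕ) : ‖(n : ℚ_[q])‖ ≤ 1 := by
  have := nint_le (q := q) n
  exact_mod_cast this

/-- adding a point of the kernel of reduction changes the coordinate by a small number -/
theorem congr_x {a b s d : ℚ_[q]} (ha : ‖a‖ ≤ 1) (hb : 1 < ‖b‖)
    (h1 : (s + d) * (a - b) ^ 2 = 2 * (a * b - 2) * (a + b))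
    (h2 : s * d * (a - b) ^ 2 = (a * b + 2) ^ 2) : ‖s - a‖ ^ 2 * ‖b‖ ≤ 1 := by
  have n2 : ‖(2 : ℚ_[q])‖ ≤ 1 := by exact_mod_cast nat_le (q := q) 2
  have n3 : ‖(3 : ℚ_[q])‖ ≤ 1 := by exact_mod_cast nat_le (q := q) 3
  have n4 : ‖(4 : ℚ_[q])‖ ≤ 1 := by exact_mod_cast nat_le (q := q) 4
  have hb0 : 0 < ‖b‖ := by linarith
  have hab : ‖a - b‖ = ‖b‖ := by
    have : a - b = -b + a := by ring
    rw [this, nadd_left (by rw [norm_neg]; linarith), norm_neg]
  have ha2 : ‖a ^ 2‖ ≤ 1 := by rw [norm_pow]; exact pow_le_one₀ (norm_nonneg _) ha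
  have ha3 : ‖a ^ 3‖ ≤ 1 := by rw [norm_pow]; exact pow_le_one₀ (norm_nonneg _) ha
  -- the product
  have p1 : (s - a) * (d - a) * (a - b) ^ 2 = (a ^ 2 + 2) ^ 2 - 4 * b * (a ^ 3 - 2 * a) := by
    linear_combination h2 - a * h1
  have p2 : ((s - a) + (d - a)) * (a - b) ^ 2 = 2 * ((3 * a ^ 2 * b + -(a ^ 3)) + (-(2 * a) + -(2 * b))) := by
    linear_combination h1
  have e1 : ‖(a ^ 2 + 2) ^ 2 - 4 * b * (a ^ 3 - 2 * a)‖ ≤ ‖b‖ := by
    refine (nsub_le _ _).trans (max_le ?_ ?_)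
    · rw [norm_pow]
      have : ‖a ^ 2 + 2‖ ≤ 1 := (nadd_le _ _).trans (max_le ha2 n2)
      exact (pow_le_one₀ (norm_nonneg _) this).trans hb.le
    · rw [norm_mul, norm_mul]
      have h3 : ‖a ^ 3 - 2 * a‖ ≤ 1 := by
        refine (nsub_le _ _).trans (max_le ha3 ?_)
        rw [norm_mul]
        exact mul_le_one₀ n2 (norm_nonneg _) ha
      calc ‖(4 : ℚ_[q])‖ * ‖b‖ * ‖a ^ 3 - 2 * a‖ ≤ 1 * ‖b‖ * 1 := by
            apply mul_le_mul _ h3 (norm_nonneg _) (by positivity)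
            exact mul_le_mul_of_nonneg_right n4 hb0.le
        _ = ‖b‖ := by ring
  have e2 : ‖2 * ((3 * a ^ 2 * b + -(a ^ 3)) + (-(2 * a) + -(2 * b)))‖ ≤ ‖b‖ := by
    rw [norm_mul]
    have h3 : ‖(3 * a ^ 2 * b + -(a ^ 3)) + (-(2 * a) + -(2 * b))‖ ≤ ‖b‖ := by
      refine (nadd_le _ _).trans (max_le ((nadd_le _ _).trans (max_le ?_ ?_))
        ((nadd_le _ _).trans (max_le ?_ ?_)))
      · rw [norm_mul, norm_mul]
        have : ‖(3 : ℚ_[q])‖ * ‖a ^ 2‖ ≤ 1 := mul_le_one₀ n3 (norm_nonneg _) ha2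
        calc _ ≤ 1 * ‖b‖ := mul_le_mul_of_nonneg_right this hb0.le
          _ = _ := one_mul _
      · rw [norm_neg]; exact ha3.trans hb.le
      · rw [norm_neg, norm_mul]; exact (mul_le_one₀ n2 (norm_nonneg _) ha).trans hb.le
      · rw [norm_neg, norm_mul]
        calc _ ≤ 1 * ‖b‖ := mul_le_mul_of_nonneg_right n2 hb0.le
          _ = _ := one_mul _
    calc _ ≤ 1 * ‖b‖ := mul_le_mul n2 h3 (norm_nonneg _) (by norm_num)
      _ = _ := one_mul _
  rw [← p1, norm_mul, norm_mul, norm_pow, hab] at e1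
  rw [← p2, norm_mul, norm_pow, hab] at e2
  have e1' : ‖s - a‖ * ‖d - a‖ * ‖b‖ ≤ 1 := by
    have : (‖s - a‖ * ‖d - a‖ * ‖b‖) * ‖b‖ ≤ 1 * ‖b‖ := by nlinarith only [e1]
    exact le_of_mul_le_mul_right this hb0
  have e2' : ‖(s - a) + (d - a)‖ * ‖b‖ ≤ 1 := by
    have : (‖(s - a) + (d - a)‖ * ‖b‖) * ‖b‖ ≤ 1 * ‖b‖ := by nlinarith only [e2]
    exact le_of_mul_le_mul_right this hb0
  by_contra hcon
  push Not at hcon
  have hs0 : 0 ≤ ‖s - a‖ := norm_nonneg _
  have k1 : 1 < ‖s - a‖ * ‖b‖ := by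
    by_cases h : 1 ≤ ‖s - a‖
    · nlinarith only [h, hb]
    · push Not at h
      nlinarith only [hcon, h, hs0, hb0, mul_nonneg hs0 hb0.le]
  have k2 : ‖(s - a) + (d - a)‖ < ‖s - a‖ := by
    have : ‖(s - a) + (d - a)‖ * ‖b‖ < ‖s - a‖ * ‖b‖ := lt_of_le_of_lt e2' k1
    exact lt_of_mul_lt_mul_right this hb0.le
  have k3 : ‖d - a‖ = ‖s - a‖ := by
    have : d - a = -(s - a) + ((s - a) + (d - a)) := by ring
    rw [this, nadd_left (by rw [norm_neg]; exact k2), norm_neg]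
  rw [k3, ← sq] at e1'
  linarith

/-- two integral points with congruent coordinates are congruent up to sign -/
theorem large_or {a b s d : ℚ_[q]} (hq2 : ‖(2 : ℚ_[q])‖ = 1) (ha : ‖a‖ ≤ 1) (hb : ‖b‖ ≤ 1)
    (hab : ‖a - b‖ < 1)
    (h1 : (s + d) * (a - b) ^ 2 = 2 * (a * b - 2) * (a + b))
    (h2 : s * d * (a - b) ^ 2 = (a * b + 2) ^ 2) : 1 < ‖s‖ ∨ 1 < ‖d‖ := by
  by_contra hcon
  push Not at hcon
  obtain ⟨hs, hd⟩ := hcon
  have n4 : ‖(4 : ℚ_[q])‖ = 1 := by
    have : (4 : ℚ_[q]) = 2 * 2 := by norm_num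
    rw [this, norm_mul, hq2, one_mul]
  have hab2 : ‖(a - b) ^ 2‖ < 1 := by
    rw [norm_pow]
    exact pow_lt_one₀ (norm_nonneg _) hab (by norm_num)
  have k1 : ‖a * b + 2‖ < 1 := by
    have h3 : ‖(a * b + 2) ^ 2‖ < 1 := by
      rw [← h2, norm_mul, norm_mul]
      calc _ ≤ 1 * ‖(a - b) ^ 2‖ :=
            mul_le_mul_of_nonneg_right (mul_le_one₀ hs (norm_nonneg _) hd) (norm_nonneg _)
        _ < 1 := by rw [one_mul]; exact hab2
    rw [norm_pow] at h3
    by_contra h4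
    push Not at h4
    exact absurd h3 (not_lt.2 (one_le_pow₀ h4))
  have k2 : ‖a * b - 2‖ = 1 := by
    have : a * b - 2 = -4 + (a * b + 2) := by ring
    rw [this, nadd_left (by rw [norm_neg, n4]; exact k1), norm_neg, n4]
  have k3 : ‖a + b‖ < 1 := by
    have h3 : ‖2 * (a * b - 2) * (a + b)‖ < 1 := by
      rw [← h1, norm_mul]
      have h4 : ‖s + d‖ ≤ 1 := (nadd_le _ _).trans (max_le hs hd)
      calc _ ≤ 1 * ‖(a - b) ^ 2‖ := mul_le_mul_of_nonneg_right h4 (norm_nonneg _)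
        _ < 1 := by rw [one_mul]; exact hab2
    rwa [norm_mul, norm_mul, hq2, k2, one_mul, one_mul] at h3
  have k4 : ‖a‖ < 1 := by
    have h3 : ‖2 * a‖ < 1 := by
      have : 2 * a = (a + b) + (a - b) := by ring
      rw [this]
      exact lt_of_le_of_lt (nadd_le _ _) (max_lt k3 hab)
    rwa [norm_mul, hq2, one_mul] at h3
  have k5 : ‖a * b‖ < ‖(2 : ℚ_[q])‖ := by
    rw [norm_mul, hq2]
    calc _ ≤ ‖a‖ * 1 := mul_le_mul_of_nonneg_left hb (norm_nonneg _)
      _ < 1 := by rw [mul_one]; exact k4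
  have k6 : ‖a * b + 2‖ = 1 := by
    rw [add_comm, nadd_left k5, hq2]
  linarith

lemma one_lt_q : (1 : ℝ) < q := by exact_mod_cast hq.out.one_lt

lemma q_le_iff (x : ℚ_[q]) : (q : ℝ) ≤ ‖x‖ ↔ 1 < ‖x‖ := by
  have h := Padic.norm_le_pow_iff_norm_lt_pow_add_one x 0
  rw [zpow_zero, zero_add, zpow_one] at h
  constructor
  · intro h1
    by_contra h2
    push Not at h2
    exact absurd (h.1 h2) (not_lt.2 h1)
  · intro h1
    by_contra h2
    push Not at h2
    exact absurd (h.2 h2) (not_le.2 h1)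

theorem toZMod_eq {x y : ℤ_[q]} (h : PadicInt.toZMod x = PadicInt.toZMod y) :
    ‖(x : ℚ_[q]) - (y : ℚ_[q])‖ < 1 := by
  have h3 : PadicInt.toZMod (x - y) = 0 := by rw [map_sub, h, sub_self]
  rw [← RingHom.mem_ker, PadicInt.ker_toZMod, PadicInt.maximalIdeal_eq_span_p,
    Ideal.mem_span_singleton, ← PadicInt.norm_lt_one_iff_dvd, PadicInt.norm_def] at h3
  exact_mod_cast h3

end norms

section pigeon

variable {q : ℕ} [hq : Fact q.Prime] [DecidableEq ℚ_[q]]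

/-- sum or difference of two integral points with congruent coordinates is in the kernel of
reduction -/
theorem add_or_sub_mem (hq2 : ‖(2 : ℚ_[q])‖ = 1) {V W : (EF ℚ_[q]).Point} {a b : ℚ_[q]}
    (hV : HX V a) (hW : HX W b) (ha : ‖a‖ ≤ 1) (hb : ‖b‖ ≤ 1) (hab : ‖a - b‖ < 1) :
    V + W ∈ EB (q : ℝ) one_lt_q ∨ V - W ∈ EB (q : ℝ) one_lt_q := by
  by_cases hne : a = b
  · subst hne
    rcases hV.eq_or_neg hW with h | h
    · right; rw [h, sub_self]; exact AddSubgroup.zero_mem _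
    · left; rw [h, neg_add_cancel]; exact AddSubgroup.zero_mem _
  · obtain ⟨s, d, hs, hd, h1, h2⟩ := HX_add_sub hV hW hne
    rcases large_or hq2 ha hb hab h1 h2 with h | h
    · left; rw [mem_EB_of_HX _ hs, q_le_iff]; exact h
    · right; rw [mem_EB_of_HX _ hd, q_le_iff]; exact h

theorem not_mem_EB {V : (EF ℚ_[q]).Point} (h : V ∉ EB (q : ℝ) one_lt_q) :
    ∃ x, HX V x ∧ ‖x‖ ≤ 1 := by
  have h0 : V ≠ 0 := by
    rintro rfl
    exact h (AddSubgroup.zero_mem _)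
  obtain ⟨x, hx⟩ := exists_HX h0
  refine ⟨x, hx, ?_⟩
  rw [mem_EB_of_HX _ hx, q_le_iff] at h
  exact not_lt.1 h

/-- residue of the first coordinate -/
noncomputable def res (V : (EF ℚ_[q]).Point) : Option (ZMod q) := by
  classical
  exact if h : V ∈ EB (q : ℝ) one_lt_q then none else
    some (PadicInt.toZMod ⟨(not_mem_EB h).choose, (not_mem_EB h).choose_spec.2⟩)

theorem res_none {V : (EF ℚ_[q]).Point} (h : res V = none) : V ∈ EB (q : ℝ) one_lt_q := by
  by_contra hcon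
  unfold res at h
  rw [dif_neg hcon] at h
  exact absurd h (by simp)

theorem res_eq {V W : (EF ℚ_[q]).Point} (hq2 : ‖(2 : ℚ_[q])‖ = 1) {c : ZMod q}
    (hV : res V = some c) (hW : res W = some c) :
    V + W ∈ EB (q : ℝ) one_lt_q ∨ V - W ∈ EB (q : ℝ) one_lt_q := by
  have h1 : V ∉ EB (q : ℝ) one_lt_q := by
    intro h
    unfold res at hV
    rw [dif_pos h] at hV
    exact absurd hV (by simp)
  have h2 : W ∉ EB (q : ℝ) one_lt_q := by
    intro h
    unfold res at hW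
    rw [dif_pos h] at hW
    exact absurd hW (by simp)
  unfold res at hV hW
  rw [dif_neg h1, Option.some.injEq] at hV
  rw [dif_neg h2, Option.some.injEq] at hW
  exact add_or_sub_mem hq2 (not_mem_EB h1).choose_spec.1 (not_mem_EB h2).choose_spec.1
    (not_mem_EB h1).choose_spec.2 (not_mem_EB h2).choose_spec.2 (toZMod_eq (hV.trans hW.symm))

/-- there are at most `2 (q + 1)` classes modulo the kernel of reduction -/
theorem pigeon (hq2 : ‖(2 : ℚ_[q])‖ = 1) {ι : Type} [Fintype ι] (V : ι → (EF ℚ_[q]).Point)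
    (hc : 2 * (q + 1) < Fintype.card ι) :
    ∃ i j, i ≠ j ∧ V i - V j ∈ EB (q : ℝ) one_lt_q := by
  classical
  by_contra hcon
  push Not at hcon
  have hq0 : NeZero q := ⟨hq.out.ne_zero⟩
  have key : (Finset.univ : Finset ι).card ≤ 2 * (Finset.univ : Finset (Option (ZMod q))).card := by
    refine Finset.card_le_mul_card_image_of_maps_to (f := fun i => res (V i))
      (fun i _ => Finset.mem_univ _) 2 ?_
    intro b _
    by_contra h
    push Not at h
    rw [Finset.two_lt_card] at h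
    obtain ⟨i, hi, j, hj, k, hk, hij, hik, hjk⟩ := h
    simp only [Finset.mem_filter, Finset.mem_univ, true_and] at hi hj hk
    rcases b with _ | c
    · exact hcon i j hij (AddSubgroup.sub_mem _ (res_none hi) (res_none hj))
    · rcases res_eq hq2 hi hj with h1 | h1
      · rcases res_eq hq2 hi hk with h2 | h2
        · apply hcon j k hjk
          have := AddSubgroup.sub_mem _ h1 h2
          rwa [add_sub_add_left_eq_sub] at this
        · exact hcon i k hik h2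
      · exact hcon i j hij h1
  rw [Finset.card_univ, Finset.card_univ, Fintype.card_option, ZMod.card] at key
  omega

end pigeon

end Vale.Agent.P027.R4.H849
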