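import Vale.Agent.P027.R4.H849.BB
import Vale.Agent.P027.R4.H815.Glob
import Vale.Agent.P027.R4.H788.ModFour

set_option linter.all false

/-! **Theorem SP.** For all large primes `r` there is a prime `q` with order `r` and
`r ^ 2 ≤ 2 (q + 1)`. -/

namespace Vale.Agent.P027.R4.H849

open Vale.Agent.P345 Vale.Agent.P027 Vale.Agent.P027.HT Vale.Agent.P027.D1
open Vale.Agent.P027.R4.H815

theorem rowBB : RowBB := by
  intro q r hq hr hr2 ho hlt
  have hodd : Odd r := hr.odd_of_ne_two hr2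
  have hq4 : q % 4 = 1 := rowM q r hq hodd ho
  obtain ⟨h1, h2⟩ := bb' hq ho hr hq4 hlt
  refine ⟨?_, fun s t hst k hk => ?_⟩
  · have : Fact r.Prime := ⟨hr⟩
    rw [ZMod.exists_sq_eq_neg_one_iff] at h1
    obtain ⟨m, hm⟩ := hodd
    omega
  · exact h2 s t hst k hk

theorem rowSP : RowSP := rowSP_of rowBB

end Vale.Agent.P027.R4.H849
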